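import Mathlib
import Vale.Agent.Lib.P123.Assembly

/-! An explicit improvement of the constant one plus the square root of two in the numerical
range inequality: the constant 117/50 = 2.34 works for all operators on all Hilbert spaces.
The inner product of Mathlib is conjugate linear in the first variable, so that
`inner ℂ x (A x)` is the usual quantity with inner product linear in the first variable applied to
`A x` and `x`. -/

namespace Vale.Agent.Results.P123.A_bound234

/-- For every nonzero complex Hilbert space `H`, every bounded operator `A` and every polynomial
`P`: if `|P|` is at most `M` on the numerical range of `A`, then the operator norm of `P(A)` is at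
most `(117/50) * M`. -/
theorem result {H : Type*} [NormedAddCommGroup H] [InnerProductSpace ℂ H] [CompleteSpace H]
    [Nontrivial H] (A : H →L[ℂ] H) (P : Polynomial ℂ) (M : ℝ)
    (hP : ∀ x : H, ‖x‖ = 1 → ‖P.eval (inner ℂ x (A x))‖ ≤ M) :
    ‖Polynomial.aeval A P‖ ≤ 117 / 50 * M :=
  Vale.Agent.Lib.P123.numrange_bound A P hP

end Vale.Agent.Results.P123.A_bound234
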