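import Mathlib
import Vale.Agent.Lib.P123.Crouzeix

/-! Crouzeix's conjecture: the numerical range of a bounded operator on a Hilbert space is a
2-spectral set for polynomials. The inner product of Mathlib is conjugate linear in the first
variable, so that `inner ℂ x (A x)` is the usual quantity with inner product linear in the first
variable applied to `A x` and `x`. -/

namespace Vale.Agent.Results.P123.A_crouzeix

/-- For every nonzero complex Hilbert space `H`, every bounded operator `A` and every polynomial
`P`: if `|P|` is at most `M` on the numerical range of `A`, then the operator norm of `P(A)` is at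
most `2 * M`. -/
theorem result {H : Type*} [NormedAddCommGroup H] [InnerProductSpace ℂ H] [CompleteSpace H]
    [Nontrivial H] (A : H →L[ℂ] H) (P : Polynomial ℂ) (M : ℝ)
    (hP : ∀ x : H, ‖x‖ = 1 → ‖P.eval (inner ℂ x (A x))‖ ≤ M) :
    ‖Polynomial.aeval A P‖ ≤ 2 * M :=
  Vale.Agent.Lib.P123.numrange_two A P hP

end Vale.Agent.Results.P123.A_crouzeix
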