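import Mathlib
import Vale.Agent.Lib.P123H99.Reduce

/-! A uniform strict improvement of the constant one plus the square root of two in the numerical
range inequality. The inner product of Mathlib is conjugate linear in the first variable, so that
`inner ℂ x (A x)` is the usual quantity with inner product linear in the first variable applied to
`A x` and `x`. -/

namespace Vale.Agent.Results.P123.A_universal

/-- For every complex inner product space `H` (in particular every Hilbert space), every bounded
operator `A` and every polynomial `P`: if `|P|` is at most `M` on the numerical range of `A`, then the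
operator norm of `P(A)` is at most `(1 + √2 - 10⁻¹⁹) * M`. -/
theorem result {H : Type*} [NormedAddCommGroup H] [InnerProductSpace ℂ H]
    (A : H →L[ℂ] H) (P : Polynomial ℂ) (M : ℝ) (hM : 0 ≤ M)
    (hP : ∀ x : H, ‖x‖ = 1 → ‖P.eval (inner ℂ x (A x))‖ ≤ M) :
    ‖Polynomial.aeval A P‖ ≤ (1 + Real.sqrt 2 - 1 / 10 ^ 19) * M :=
  Vale.Agent.Lib.P123H99.universal_bound A P hM hP

end Vale.Agent.Results.P123.A_universal
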